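import Vale.Agent.P333.H537.Gd.Str

set_option autoImplicit false

/-!
P333: a family of strings for which a greedy superstring is longer than twice a shortest one.
-/

namespace Vale.Agent.P333.H537.Gd

open Vale.Agent.P333.H537

theorem step0 : Greedy.Step
    [s0, s1, s2, s3, s4, s5, s6, s7, s8, s9, s10, s11, s12, s13, s14, s15, s16, s17, s18]
    [m0, s0, s1, s2, s3, s4, s5, s6, s7, s10, s11, s12, s13, s14, s15, s16, s17, s18] :=
  step_of s8 s9 m0
    [s0, s1, s2, s3, s4, s5, s6, s7, s10, s11, s12, s13, s14, s15, s16, s17, s18] 162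
    ((List.perm_middle (l₁ := [s0, s1, s2, s3, s4, s5, s6, s7]) (a := s8)
      (l₂ := [s9, s10, s11, s12, s13, s14, s15, s16, s17, s18])).trans
      ((List.perm_middle (l₁ := [s0, s1, s2, s3, s4, s5, s6, s7]) (a := s9)
      (l₂ := [s10, s11, s12, s13, s14, s15, s16, s17, s18])).cons s8))
    (by decide +kernel) (by decide +kernel) (by decide +kernel) (by decide +kernel)
    (by decide +kernel) rfl

theorem step1 : Greedy.Step
    [m0, s0, s1, s2, s3, s4, s5, s6, s7, s10, s11, s12, s13, s14, s15, s16, s17, s18]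
    [m1, m0, s0, s1, s2, s3, s4, s5, s6, s7, s10, s11, s12, s13, s14, s15, s18] :=
  step_of s16 s17 m1
    [m0, s0, s1, s2, s3, s4, s5, s6, s7, s10, s11, s12, s13, s14, s15, s18] 162
    ((List.perm_middle (l₁ := [m0, s0, s1, s2, s3, s4, s5, s6, s7, s10, s11, s12, s13, s14, s15]) (a := s16)
      (l₂ := [s17, s18])).trans
      ((List.perm_middle (l₁ := [m0, s0, s1, s2, s3, s4, s5, s6, s7, s10, s11, s12, s13, s14, s15]) (a := s17)
      (l₂ := [s18])).cons s16))
    (by decide +kernel) (by decide +kernel) (by decide +kernel) (by decide +kernel)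
    (by decide +kernel) rfl

theorem step2 : Greedy.Step
    [m1, m0, s0, s1, s2, s3, s4, s5, s6, s7, s10, s11, s12, s13, s14, s15, s18]
    [m2, m1, m0, s0, s1, s2, s3, s4, s5, s10, s11, s12, s13, s14, s15, s18] :=
  step_of s6 s7 m2
    [m1, m0, s0, s1, s2, s3, s4, s5, s10, s11, s12, s13, s14, s15, s18] 157
    ((List.perm_middle (l₁ := [m1, m0, s0, s1, s2, s3, s4, s5]) (a := s6)
      (l₂ := [s7, s10, s11, s12, s13, s14, s15, s18])).trans
      ((List.perm_middle (l₁ := [m1, m0, s0, s1, s2, s3, s4, s5]) (a := s7)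
      (l₂ := [s10, s11, s12, s13, s14, s15, s18])).cons s6))
    (by decide +kernel) (by decide +kernel) (by decide +kernel) (by decide +kernel)
    (by decide +kernel) rfl

theorem step3 : Greedy.Step
    [m2, m1, m0, s0, s1, s2, s3, s4, s5, s10, s11, s12, s13, s14, s15, s18]
    [m3, m2, m0, s0, s1, s2, s3, s4, s5, s10, s11, s12, s13, s14, s18] :=
  step_of s15 m1 m3
    [m2, m0, s0, s1, s2, s3, s4, s5, s10, s11, s12, s13, s14, s18] 157
    ((List.perm_middle (l₁ := [m2, m1, m0, s0, s1, s2, s3, s4, s5, s10, s11, s12, s13, s14]) (a := s15)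
      (l₂ := [s18])).trans
      ((List.perm_middle (l₁ := [m2]) (a := m1)
      (l₂ := [m0, s0, s1, s2, s3, s4, s5, s10, s11, s12, s13, s14, s18])).cons s15))
    (by decide +kernel) (by decide +kernel) (by decide +kernel) (by decide +kernel)
    (by decide +kernel) rfl

theorem step4 : Greedy.Step
    [m3, m2, m0, s0, s1, s2, s3, s4, s5, s10, s11, s12, s13, s14, s18]
    [m4, m3, m2, m0, s0, s1, s2, s3, s4, s5, s12, s13, s14, s18] :=
  step_of s10 s11 m4
    [m3, m2, m0, s0, s1, s2, s3, s4, s5, s12, s13, s14, s18] 133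
    ((List.perm_middle (l₁ := [m3, m2, m0, s0, s1, s2, s3, s4, s5]) (a := s10)
      (l₂ := [s11, s12, s13, s14, s18])).trans
      ((List.perm_middle (l₁ := [m3, m2, m0, s0, s1, s2, s3, s4, s5]) (a := s11)
      (l₂ := [s12, s13, s14, s18])).cons s10))
    (by decide +kernel) (by decide +kernel) (by decide +kernel) (by decide +kernel)
    (by decide +kernel) rfl

end Vale.Agent.P333.H537.Gd
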